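import Crest.Agent.X212.Sw87.MoP
import Crest.Agent.X212.Lr83.Lr

/-!
# Row 212, GEO engine, P-AS (helper6), part A: times, forms and embeddings
-/

set_option autoImplicit false
set_option linter.unusedSectionVars false
noncomputable section
open scoped Manifold ContDiff Topology
open Set Function Filter

namespace Crest.Agent.X212.As6
open An Cyf70 Sw Flo2 Geo28 Met55 Pen22 Sw87.Mo Lr83
open Bor5.T (O3 Q3)
open Dr59 (pm mf)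

section gen
variable {X X' Y Y' : M4} {A : O3} {J W : Set ℝ}

theorem pm_inj (l : PD X X') {a b : X'.Fm} {p : X.M} (hp : p ∈ l.source)
    (h : pm X.I X'.I l a p = pm X.I X'.I l b p) : a (l p) = b (l p) := by
  have m := l.map_source hp
  have e : l.symm (l p) = p := l.left_inv hp
  have k : ∀ c : X'.Fm, pm X'.I X.I l.symm (pm X.I X'.I l c) (l p) = c (l p) := fun c =>
    (Dr59.pm_comp (md_pd l (l.map_target m)) (md_pd l.symm m)).trans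
      (Dr59.pm_of_eventually_id (Mv17.ev_r l m) c)
  rw [← k a, ← k b]
  exact Dr59.pm_congr_right (e.symm ▸ h)

theorem pm_tri {l : PD X Y} {l' : PD Y Y'} {m : X.M → Y'.M} {p : X.M} (hp : p ∈ l.source)
    (hq : l p ∈ l'.source) (h : ∀ q ∈ l.source, l' (l q) = m q) (f : Y'.Fm) :
    pm X.I Y.I l (pm Y.I Y'.I l' f) p = pm X.I Y'.I m f p :=
  (Dr59.pm_comp (md_pd l' hq) (md_pd l hp)).trans
    (Dr59.pm_congr (eventually_of_mem (l.open_source.mem_nhds hp) h) rfl)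

theorem mf_tri {l : PD X Y} {l' : PD Y Y'} {m : X.M → Y'.M} {p : X.M} (hp : p ∈ l.source)
    (hq : l p ∈ l'.source) (h : ∀ q ∈ l.source, l' (l q) = m q) (v : X.X.E) :
    mf Y.I Y'.I l' (l p) (mf X.I Y.I l p v) = mf X.I Y'.I m p v :=
  DFunLike.congr_fun ((Dr59.mf_comp (md_pd l' hq) (md_pd l hp)).symm.trans
    (Dr59.mf_congr (eventually_of_mem (l.open_source.mem_nhds hp) h))) v

/-- the reparametrisations commute with maps that match the ends -/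
theorem cpf_mt {k : Nc A X J} {k' : Nc A X' J} {f : ℝ ≃ₜ ℝ} (h : Rp J f W) {l : X.M → X'.M}
    (m : ∀ y, ∀ t ∈ J, l (k.k (y, t)) = k'.k (y, t)) {p : X.M} (e : k'.tm (l p) ∈ J → k.tm p ∈ J) :
    cpf k' f (l p) = l (cpf k f p) := by
  by_cases hp : k.tm p ∈ J
  · obtain ⟨y, hy⟩ := exists_k k hp
    rw [← hy, m y _ hp, cpf_k k f y hp, cpf_k k' f y hp, m y _ (h.mem hp)]
  · rw [cpf_off k f hp, cpf_off k' f fun n => hp (e n)]

theorem fR_gt {v t : ℝ} (h : -(len v + 1) < t) : -3 < fR v t := by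
  rw [fR_apply, lt_sub_iff_add_lt, show (-3 + 4 : ℝ) = 1 by norm_num, lt_symm]; linarith

variable {κ : Type} [Fintype κ] [DecidableEq κ] {X₁ X₂ : M4} {τ : MT κ X} {τ₁ : MT κ X₁} {τ₂ : MT κ X₂}
  {γ : TG τ τ₁ τ₂} (Λ : γ.LR) {v : ℝ}

theorem lr_l {x : X₁.M} (h : x ∈ (Λ.l v).source) : γ.k₁.tm (cpf γ.k₁ (stH v).symm x) < 3 ∧
    Λ.l v x = γ.g.l (cpf γ.k₁ (stH v).symm x) :=
  ⟨by rw [tm_cpf _ (rpL v), symm_lt]; exact (Λ.ls v).le h, cp_l γ v ▸ Λ.le v x h⟩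

theorem lr_r {x : X₂.M} (h : x ∈ (Λ.r v).source) : -3 < γ.k₂.tm (cpf γ.k₂ (fR v) x) ∧
    Λ.r v x = γ.g.r (cpf γ.k₂ (fR v) x) :=
  ⟨by rw [tm_cpf _ (rpR v)]; exact fR_gt ((Λ.rs v).le h), cp_r γ v ▸ Λ.re v x h⟩

end gen

section cm
variable {a c : Option O3} {B : O3} {T₁ : Pm a (some B) none} {T₂ : Pm (some B) c none}
  {T : Pm a c none} (g : Cm T₁ T₂ T)

theorem ki_gt {p : T₁.M} (hp : p ∈ g.l.source) {r : ℝ} (hr : r < 0) :
    r < T.ki.tm (g.l p) ↔ r < T₁.ki.tm p := not_iff_not.1 (by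
  simp only [not_lt]
  exact ⟨fun h => ki_l g hp (.inr (h.trans_lt hr)) ▸ h, fun h => (ki_l g hp (.inl (h.trans_lt hr))).trans_le h⟩)

theorem ko_lt {p : T₂.M} (hp : p ∈ g.r.source) {r : ℝ} (hr : 0 < r) :
    T.ko.tm (g.r p) < r ↔ T₂.ko.tm p < r := not_iff_not.1 (by
  simp only [not_lt]
  exact ⟨fun h => ko_r g hp (.inr (hr.trans_le h)) ▸ h, fun h => h.trans_eq (ko_r g hp (.inl (hr.trans_le h))).symm⟩)

theorem n_l (y : B.Y.M) {t : ℝ} (h : t ∈ Ioo (0 : ℝ) 4) : Nc.k T₁.ko (y, t) ∈ g.l.source :=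
  (mem_l g.toGl3).2 ((tm_k _ y h.1).trans_lt h.2)

theorem n_r (y : B.Y.M) {t : ℝ} (h : t ∈ Ioo (0 : ℝ) 4) : Nc.k T₂.ki (y, t - 4) ∈ g.r.source :=
  (mem_r g.toGl3).2 (lt_of_lt_of_eq (b := t - 4) (by linarith [h.1]) (tm_k T₂.ki y (sub_neg.2 h.2 : t - 4 < 0)).symm)

theorem ko_n (y : B.Y.M) {t : ℝ} (h : t ∈ Ioo (0 : ℝ) 4) : T.ko.tm (g.n.k (y, t)) ≤ 0 :=
  g.ol y t h ▸ ko_l g (n_l g y h)

theorem ki_n (y : B.Y.M) {t : ℝ} (h : t ∈ Ioo (0 : ℝ) 4) : 0 ≤ T.ki.tm (g.n.k (y, t)) :=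
  g.or y t h ▸ ki_r g (n_r g y h)

end cm

section pg
variable {G : CG} {a : Option Q3} {B C : Q3} (Z : PG0 G a B C)

theorem mC {p : Z.X12.M} {r : ℝ} (h : Z.X12.ko.tm p ≤ 0) (hr : 0 < r) : Nc.tm Z.X12.ko p < r := h.trans_lt hr

theorem nB (y) {t : ℝ} (h : t ∈ Ioo (0 : ℝ) 4) : Z.gB.n.k (y, t) = Z.gC.l (Z.g12.n.k (y, t)) := by
  rw [← Z.gB.ol y t h, ← Z.g12.ol y t h, Z.as1 _ (n_l Z.g12 y h)]

theorem nC (y) {t : ℝ} (h : t ∈ Ioo (0 : ℝ) 4) : Z.gC.n.k (y, t) = Z.gB.r (Z.g23.n.k (y, t)) := by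
  rw [← Z.gC.or y t h, ← Z.g23.or y t h, Z.as3 _ (n_r Z.g23 y h)]

theorem n_dj : Disjoint Z.gB.n.k.target Z.gC.n.k.target := disjoint_left.2 fun p m m' => by
  have h := Z.gB.n.tgt.le m
  obtain ⟨y, e⟩ := exists_k Z.gB.n h
  have := l_le Z.gC.toGl3 le_rfl four_pos (ko_n Z.g12 y h)
  rw [← nB Z y h, e] at this
  exact this.not_gt (Z.gC.n.tgt.le m').1

theorem sl {p} (h : p ∈ Z.g12.l.source) : Z.g12.l p ∈ Z.gC.l.source :=
  (mem_l Z.gC.toGl3).2 ((ko_l Z.g12 h).trans_lt four_pos)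

theorem sr {p} (h : p ∈ Z.g23.r.source) : Z.g23.r p ∈ Z.gB.r.source :=
  (mem_r Z.gB.toGl3).2 (lt_of_lt_of_le (by norm_num) (ki_r Z.g23 h))

theorem ev2 {p} (h : p ∈ Z.g12.r.source) (h' : p ∈ Z.g23.l.source) :
    (fun q => Z.gB.r (Z.g23.l q)) =ᶠ[𝓝 p] fun q => Z.gC.l (Z.g12.r q) :=
  eventually_of_mem ((Z.g12.r.open_source.inter Z.g23.l.open_source).mem_nhds ⟨h, h'⟩)
    fun q m => (Z.as2 q m.1 m.2).symm

theorem s2 {p} (h : p ∈ Z.g12.r.source) (h' : p ∈ Z.g23.l.source) :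
    Z.g23.l p ∈ Z.gB.r.source ∧ Z.g12.r p ∈ Z.gC.l.source :=
  ⟨(mem_r Z.gB.toGl3).2 ((ki_gt Z.g23 h' (by norm_num)).2 ((mem_r Z.g12.toGl3).1 h)),
    (mem_l Z.gC.toGl3).2 ((ko_lt Z.g12 h four_pos).2 ((mem_l Z.g23.toGl3).1 h'))⟩

/-- forms -/
theorem as_f {f1 f2 f3 f12 f23 f} (h12 : Z.g12.Fm f12 f1 f2) (h23 : Z.g23.Fm f23 f2 f3)
    (hC : Z.gC.Fm f f12 f3) : Z.gB.Fm f f1 f23 := by
  refine ⟨fun p hp => ?_, fun x hx => ?_⟩
  · have m := (mem_l Z.g12.toGl3).2 (hp.trans (by norm_num))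
    rw [← pm_tri m (sl Z m) Z.as1, Dr59.pm_congr_right (hC.1 _ (mC Z (ko_l Z.g12 m) three_pos)), h12.1 p hp]
  rcases lt_or_ge (Z.g23.n.tm x) 3 with h | h
  · obtain ⟨p, hp, rfl⟩ := (img_l Z.g23.toGl3 three_pos (by norm_num)).ge h
    have m := (mem_l Z.g23.toGl3).2 (hp.out.trans (by norm_num))
    have k := (ki_gt Z.g23 m (by norm_num)).1 hx
    have m' := (mem_r Z.g12.toGl3).2 (lt_trans (by norm_num) k)
    have s := s2 Z m' m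
    refine pm_inj Z.g23.l m ?_
    rw [h23.1 p hp, ← h12.2 p k, ← Dr59.pm_congr_right (hC.1 _ ((ko_lt Z.g12 m' three_pos).2 hp)),
      Dr59.pm_comp (md_pd _ s.1) (md_pd _ m), Dr59.pm_comp (md_pd _ s.2) (md_pd _ m')]
    exact Dr59.pm_congr (ev2 Z m' m) rfl
  · obtain ⟨p, hp, rfl⟩ := (img_r Z.g23.toGl3 three_pos (by norm_num)).ge
      (show 4 - 3 < Z.g23.n.tm x by linarith)
    have m := (mem_r Z.g23.toGl3).2 (lt_trans (by norm_num) hp.out)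
    refine pm_inj Z.g23.r m ?_
    rw [pm_tri m (sr Z m) Z.as3, h23.2 p hp, hC.2 p hp]

/-- the embeddings of the middle piece -/
theorem as_lr {v w : ℝ} {x : Z.X2.M} (h : Nc.tm Z.X2.ko (cpf Z.X2.ko (stH w).symm x) < 3)
    (h' : -3 < Nc.tm Z.X2.ki (cpf Z.X2.ki (fR v) x)) :
    Z.gB.r (cpf Z.X23.ki (fR v) (Z.g23.l (cpf Z.X2.ko (stH w).symm x))) =
      Z.gC.l (cpf Z.X12.ko (stH w).symm (Z.g12.r (cpf Z.X2.ki (fR v) x))) := by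
  have m := (mem_l Z.g23.toGl3).2 (h.trans (by norm_num))
  have m' := (mem_r Z.g12.toGl3).2 (lt_trans (by norm_num) h')
  rw [cpf_mt (k := Z.X2.ki) (rpR v) (fun y t ht => Z.g23.ki y t ht (abs_pos.2 (ne_of_lt ht)))
      fun e => (ki_l Z.g23 m (.inr e)).symm.trans_lt e,
    cpf_mt (k := Z.X2.ko) (rpL w) (fun y t ht => Z.g12.ko y t ht (abs_pos.2 (ne_of_gt ht)))
      fun e => lt_of_lt_of_eq e (ko_r Z.g12 m' (.inr e))]
  by_cases k : Nc.tm Z.X2.ki x ∈ Iio 0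
  · have k' := Z.X2.io _ ((tm_cpf Z.X2.ki (rpR v) x).trans_lt ((rpR v).mem k))
    rw [cpf_off _ _ (Z.X2.io x k).not_gt, cpf_off _ _ k'.not_gt]
    exact (Z.as2 _ m' ((mem_l Z.g23.toGl3).2 (k'.trans_lt four_pos))).symm
  · have k' : Nc.tm Z.X2.ki (cpf Z.X2.ko (stH w).symm x) ∉ Iio 0 := fun e => by
      by_cases o : Nc.tm Z.X2.ko x ∈ Ioi 0
      · exact (Z.X2.io _ e).not_gt (((rpL w).mem o).out.trans_eq (tm_cpf Z.X2.ko (rpL w) x).symm)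
      · exact k (cpf_off _ _ o ▸ e)
    rw [cpf_off _ _ k, cpf_off _ _ k']
    exact (Z.as2 _ ((mem_r Z.g12.toGl3).2 (lt_of_lt_of_le (by norm_num) (not_lt.1 k'))) m).symm

end pg

end Crest.Agent.X212.As6
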