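import Crest.Agent.X212.As6.A

/-!
# Row 212, GEO engine, P-AS (helper6): associativity of the two necks
-/

set_option autoImplicit false
set_option linter.unusedSectionVars false
noncomputable section
open scoped Manifold ContDiff Topology
open Set Function Filter

namespace Crest.Agent.X212.As6
open An Cyf70 Sw Flo2 Geo28 Met55 Pen22 Sw87.Mo Lr83
open Bor5.T (O3 Q3)
open Dr59 (pm mf)

section cor
variable {κ : Type} [Fintype κ] [DecidableEq κ] {μ : Type} [Fintype μ] [DecidableEq μ] {X X' X₁ X₂ : M4}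

/-- corresponding bands: the frames are literal iff they correspond -/
theorem cor_rl {b : NB κ X} {b' : NB κ X'} {φ : PD X X'} (h : b.Cor b' φ) (s : b.k.target ⊆ φ.source)
    {e : Option κ → VF X.I X.M} {e' : Option κ → VF X'.I X'.M} {v : ℝ} (r : b.Rl e v (1 / 2)) :
    b'.Rl e' v (1 / 2) ↔
      ∀ a, ∀ z ∈ b.V (1 / 2), mfderiv X.I X'.I φ (b.k z) (e a (b.k z)) = e' a (φ (b.k z)) := by
  obtain ⟨n, rfl, hn⟩ := h
  refine forall_congr' fun a => forall₂_congr fun z hz => ?_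
  have m := b.V_sub half_le hz
  have e1 : (n.k : _ → X'.M) =ᶠ[𝓝 z] φ ∘ b.k :=
    eventually_of_mem ((b.V_open _).mem_nhds hz) fun y hy => hn y.1 y.2 hy.2
  rw [← r a z hz, ← show n.k z = φ (b.k z) from e1.self_of_nhds]
  exact Eq.congr_left ((DFunLike.congr_fun e1.mfderiv_eq _).trans (DFunLike.congr_fun (mfderiv_comp z
    (md_pd φ (s (b.k.map_source m))) (((b.sm _ m).contMDiffAt (b.k.open_source.mem_nhds m)).mdifferentiableAt
      (by simp))) _))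

/-- corresponding bands of one type: the modules correspond -/
theorem cor_mm {τ : MT κ X} {τ' : MT κ X'} {M : MM μ τ} {M' : MM μ τ'} {i i'} {φ : X.M → X'.M}
    (h : (τ.nb i).Cor (τ'.nb i') φ) (q : M.ty i = M'.ty i') {z} (hz : z ∈ (τ.nb i).V (1 / 2)) :
    M'.m.p (φ ((τ.nb i).k z)) = M.m.p ((τ.nb i).k z) ∧ M'.m.r (φ ((τ.nb i).k z)) = M.m.r ((τ.nb i).k z) := by
  have k : ∀ {b : NB κ X} {b' : NB κ X'}, b.Cor b' φ → ∀ {ec : EC (μ ⊕ μ) b.e.eg} {cl : ec.L}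
      {ec' : EC (μ ⊕ μ) b'.e.eg} {cl' : ec'.L}, (⟨⟨_, ec⟩, cl⟩ : Ty κ L0 (μ ⊕ μ)) = ⟨⟨_, ec'⟩, cl'⟩ →
      (∀ z ∈ b'.V (1 / 2), M'.m.re.p (b'.k z) = (ec'.m cl').p z.1 ∧
        ∀ a, M'.m.re.ρ a (b'.k z) = (ec'.m cl').ρ a z.1) → ∀ z ∈ b.V (1 / 2),
      M'.m.re.p (φ (b.k z)) = (ec.m cl).p z.1 ∧ ∀ a, M'.m.re.ρ a (φ (b.k z)) = (ec.m cl).ρ a z.1 := by
    rintro b _ ⟨n, rfl, hn⟩ _ _ _ _ q l z hz
    cases q
    rw [← show n.k z = φ (b.k z) from hn z.1 z.2 hz.2]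
    exact l z hz
  have a := M.lit i z hz
  have a' := k h q (M'.lit i') z hz
  exact ⟨Line51.rl_injective (a'.1.trans a.1.symm),
    funext fun b => Line51.rl_injective ((a'.2 b).trans (a.2 b).symm)⟩

end cor

section ct
variable {a c : Option O3} {B : O3} {ga : EO κ0 a} {gB : EO κ0 (some B)} {gc : EO κ0 c}
  {T₁ : Pm a (some B) none} {T₂ : Pm (some B) c none} {T : Pm a c none} {g : Cm T₁ T₂ T} {τ₁ τ₂ τ}
  (D : CT ga gB gc g τ₁ τ₂ τ)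

theorem po : τ₁.pout = some D.γ.j₁ := D.γ.port.1

theorem pi : τ₂.pin = some D.γ.j₂ := (τ₂.inn _).1 D.γ.s_2

theorem ex_n {p : T.M} (h : p ∈ (τ.nb D.i).k.target) : ∃ y, ∃ t ∈ Ioo (0 : ℝ) 4, g.n.k (y, t) = p := by
  rw [D.hi] at h
  exact (exists_k g.n (g.n.tgt.le h)).imp fun _ e => ⟨_, g.n.tgt.le h, e⟩

theorem of_r₁ (f : ∀ i, (τ₁.nb i).s ≠ none) {j i} (r : D.γ.r₁ j i) : τ₁.pin = some j ∧ τ.pin = some i := by
  have h : τ₁.pin = some j := ((τ₁.port (f j)).resolve_right fun h => h.elim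
    (fun h => r.1 (Option.some.inj (h.symm.trans (po D)))) fun h => nomatch h.symm.trans D.γ.port.2.2)
  exact ⟨h, (τ.inn i).1 (r.2.2.s.trans ((τ₁.inn j).2 h))⟩

include D in
theorem out_of {X' : M4} {τ' : MT κ0 X'} {j i φ} (r : (τ'.nb j).Cor (τ.nb i) φ) (h : τ'.pout = some j) :
    τ.pout = some i := ((τ.out i).1 (r.s.trans ((τ'.out j).2 (.inl h)))).resolve_right
      fun h => nomatch h.symm.trans D.γ.p3.2

theorem of_r₂ (f : ∀ i, (τ₂.nb i).s ≠ none) {j i} (r : D.γ.r₂ j i) : τ₂.pout = some j ∧ τ.pout = some i := by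
  have h : τ₂.pout = some j := ((τ₂.port (f j)).resolve_left
    fun h => r.1 (Option.some.inj (h.symm.trans (pi D)))).resolve_right fun h => nomatch h.symm.trans D.γ.p3.1
  exact ⟨h, out_of D r.2.2 h⟩

theorem r₁_of {j i} (h : τ₁.pin = some j) (h' : τ.pin = some i) : D.γ.r₁ j i :=
  let ⟨_, e, r⟩ := rel_l D.γ.pin h
  Option.some.inj (e.symm.trans h') ▸ r

theorem r₂_of {j i} (h : τ₂.pout = some j) (h' : τ.pout = some i) : D.γ.r₂ j i :=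
  let ⟨_, e, r⟩ := rel_l D.γ.port.2.1 h
  Option.some.inj (e.symm.trans h') ▸ r

end ct

section pg
variable {G : CG} {a : Option Q3} {B C : Q3} {Z : PG0 G a B C} {ga : EO κ0 (vo a)}
  {gB : EO κ0 (some B.toO3)} {gC : EO κ0 (some C.toO3)} {τ1 τ2 τ3 τ12 τ23 τ}
  (c12 : CT ga gB gC Z.g12 τ1 τ2 τ12) (c23 : CT gB gC ga Z.g23 τ2 τ3 τ23)

theorem corB {τ : MT κ0 Z.X.X} {i} (h : τ.nb i = ⟨gB.et, none, Z.gB.n⟩) : (τ12.nb c12.i).Cor (τ.nb i) Z.gC.l := by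
  rw [c12.hi, h]
  exact ⟨_, rfl, fun y _ m => nB Z y (jm_sub none half_le m)⟩

theorem corC {τ : MT κ0 Z.X.X} {i} (h : τ.nb i = ⟨gC.et, none, Z.gC.n⟩) : (τ23.nb c23.i).Cor (τ.nb i) Z.gB.r := by
  rw [c23.hi, h]
  exact ⟨_, rfl, fun y _ m => nC Z y (jm_sub none half_le m)⟩

theorem koB {p} (h : p ∈ (τ12.nb c12.i).k.target) : Z.X12.ko.tm p ≤ 0 :=
  let ⟨y, _, m, e⟩ := ex_n c12 h
  e ▸ ko_n Z.g12 y m

theorem kiC {p} (h : p ∈ (τ23.nb c23.i).k.target) : 0 ≤ Z.X23.ki.tm p :=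
  let ⟨y, _, m, e⟩ := ex_n c23 h
  e ▸ ki_n Z.g23 y m

variable (cC : CT ga gC ga Z.gC τ12 τ3 τ) (cB : CT ga gB ga Z.gB τ1 τ23 τ)

theorem ne_i : cB.i ≠ cC.i := fun e => (NB.cor_refl _).both (NB.cor_refl (τ.nb cB.i)) (by
  have := n_dj Z
  conv => lhs; rw [cB.hi]
  conv => rhs; rw [e, cC.hi]
  exact this)

theorem as_r₁ : cC.γ.r₁ c12.i cB.i :=
  ⟨fun e => (nomatch c12.γ.s_i.symm.trans ((congrArg (τ12.nb · |>.s) e).trans cC.γ.s_1)), ne_i cC cB,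
    corB c12 cB.hi⟩

theorem as_r₂ : cB.γ.r₂ c23.i cC.i :=
  ⟨fun e => (nomatch c23.γ.s_i.symm.trans ((congrArg (τ23.nb · |>.s) e).trans cB.γ.s_2)), (ne_i cC cB).symm,
    corC c23 cC.hi⟩

variable {c12 c23 cC cB}

theorem as_gb {β1 : MB τ1 0} {β2 : MB τ2 0} {β3 : MB τ3 0} {βH βH' βQ} (h12 : c12.γ.GB βH β1 β2 0 e0 e0)
    (h23 : c23.γ.GB βH' β2 β3 0 e0 e0) (hC : cC.γ.GB βQ βH β3 (1 : Fin 2) ![0] e0) :
    cB.γ.GB βQ β1 βH' 0 e0 ![1] := by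
  refine ⟨by decide, ?_, fun c => c.elim0, fun c => .inr ⟨c23.i, ?_, cC.i, ?_, as_r₂ c23 cC cB⟩⟩
  · obtain ⟨e, -⟩ | ⟨j, e, i, e', r⟩ := hC.w₁ 0
    · exact nomatch e.symm.trans h12.wl
    · cases Option.some.inj (e.symm.trans h12.wl)
      exact e'.trans (congrArg some ((cC.γ.inj₁ _ _ _ _ r (as_r₁ c12 cC cB)).1 rfl))
  · exact Subsingleton.elim 0 c ▸ h23.wl
  · exact Subsingleton.elim 0 c ▸ hC.wl

theorem as_gf {β1 : MB τ1 0} {β2 : MB τ2 0} {β3 : MB τ3 0} {βH βH' βQ} {u : Tk 2}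
    (h12 : c12.γ.GF βH β1 β2 0 e0 e0 (u ∘ ![0])) (h23 : c23.γ.GF βH' β2 β3 0 e0 e0 (u ∘ ![1]))
    (hC : cC.γ.GF βQ βH β3 (1 : Fin 2) ![0] e0 u) : cB.γ.GF βQ β1 βH' 0 e0 ![1] u := by
  refine ⟨fun x hx b => ?_, fun x hx b => ?_, ?_⟩
  · have m := (mem_l Z.g12.toGl3).2 (hx.trans (by norm_num))
    have e := hC.l _ (mC Z (ko_l Z.g12 m) (by norm_num)) b
    erw [← h12.l x hx, t0 (_ ∘ e0)] at e
    rw [t0 (_ ∘ e0)]
    exact ((mf_tri m (sl Z m) Z.as1 _).symm.trans e).trans (congrArg _ (Z.as1 x m))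
  · obtain ⟨p, hp, rfl⟩ | ⟨p, hp, rfl⟩ | ⟨z, hz, rfl⟩ := c23.γ.cover x
    · have m := (mem_l Z.g23.toGl3).2 (hp.trans (by norm_num))
      have k := (ki_gt Z.g23 m (by norm_num)).1 hx
      have m' := (mem_r Z.g12.toGl3).2 (lt_trans (by norm_num) k)
      have s := s2 Z m' m
      have e := hC.l _ ((ko_lt Z.g12 m' (by norm_num)).2 hp) b
      erw [← h12.r p k, t0 (_ ∘ e0)] at e
      rw [← h23.l p hp, t0 (_ ∘ e0)]
      exact ((mf_sq (ev2 Z m' m) m s.2 (md_pd _ m') (md_pd _ s.1) _).trans e).trans (congrArg _ (Z.as2 p m' m))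
    · have m := (mem_r Z.g23.toGl3).2 (lt_trans (by norm_num) hp)
      have e := hC.r _ hp b
      rw [t0 (_ ∘ e0)] at e
      rw [← h23.r p hp, t0 (_ ∘ e0)]
      exact ((mf_tri m (sr Z m) Z.as3 _).trans e).trans (congrArg _ (Z.as3 p m).symm)
    · exact (cor_rl (corC c23 cC.hi) (fun p m => (mem_r Z.gB.toGl3).2
        (lt_of_lt_of_le (by norm_num) (kiC c23 m))) h23.n).1 hC.n b z hz
  · exact (cor_rl (corB c12 cB.hi) (fun p m => (mem_l Z.gC.toGl3).2 ((koB c12 m).trans_lt four_pos)) h12.n).2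
      fun b z hz => hC.l _ (mC Z (koB c12 ((τ12.nb c12.i).k.map_source (NB.V_sub _ half_le hz))) (by norm_num)) b

theorem as_m (f1 : ∀ i, (τ1.nb i).s ≠ none) (f2 : ∀ i, (τ2.nb i).s ≠ none) (f3 : ∀ i, (τ3.nb i).s ≠ none)
    {M1 M2 M3 M12 M23} {M : MM μ0 τ} (h12 : c12.γ.GM M12 M1 M2) (h23 : c23.γ.GM M23 M2 M3)
    (hC : cC.γ.GM M M12 M3) : cB.γ.GM M M1 M23 := by
  have tB := hC.r₁ _ _ (as_r₁ c12 cC cB)
  have tC : M23.ty c23.i = M.ty cC.i := h23.t₂.symm.trans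
    ((congrArg M3.ty (Option.some.inj ((pi c23).symm.trans (pi cC)))).trans hC.t₂)
  refine ⟨(congrArg M1.ty (Option.some.inj ((po cB).symm.trans (po c12)))).trans (h12.t₁.trans tB),
    (h23.r₁ _ _ (r₁_of c23 (pi c12) (pi cB))).symm.trans (h12.t₂.trans tB), fun j i r => ?_, fun j i r => ?_,
    fun x hx => ?_, fun x hx => ?_⟩
  · obtain ⟨e, e'⟩ := of_r₁ cB f1 r
    obtain ⟨k, e'', r'⟩ := rel_l c12.γ.pin e
    exact (h12.r₁ _ _ r').trans (hC.r₁ _ _ (r₁_of cC e'' e'))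
  · obtain rfl | ⟨k, r'⟩ | ⟨k, r'⟩ := c23.γ.sur j
    · exact (cB.γ.inj₂ _ _ _ _ (as_r₂ c23 cC cB) r).1 rfl ▸ tC
    · exact (r.1 (Option.some.inj ((of_r₁ c23 f2 r').2.symm.trans (pi cB)))).elim
    · obtain ⟨e, e'⟩ := of_r₂ c23 f3 r'
      exact (h23.r₂ _ _ r').symm.trans (hC.r₂ _ _ (r₂_of cC e (out_of cB r.2.2 e')))
  · have m := (mem_l Z.g12.toGl3).2 (hx.out.trans (by norm_num))
    have e := hC.l _ (mC Z (ko_l Z.g12 m) (by norm_num))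
    have e' := h12.l x hx
    have k := Z.as1 x m
    exact ⟨(congrArg M.m.p k).symm.trans (e.1.trans e'.1), (congrArg M.m.r k).symm.trans (e.2.trans e'.2)⟩
  · obtain ⟨p, hp, rfl⟩ | ⟨p, hp, rfl⟩ | ⟨z, hz, rfl⟩ := c23.γ.cover x
    · have m := (mem_l Z.g23.toGl3).2 (hp.trans (by norm_num))
      have k := (ki_gt Z.g23 m (by norm_num)).1 hx
      have m' := (mem_r Z.g12.toGl3).2 (lt_trans (by norm_num) k)
      have e := hC.l _ ((ko_lt Z.g12 m' (by norm_num)).2 hp)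
      have e' := h12.r p k
      have e'' := h23.l p hp
      have k := Z.as2 p m' m
      exact ⟨(congrArg M.m.p k).symm.trans (e.1.trans (e'.1.trans e''.1.symm)),
        (congrArg M.m.r k).symm.trans (e.2.trans (e'.2.trans e''.2.symm))⟩
    · have e := hC.r p hp
      have e' := h23.r p hp
      have k := Z.as3 p ((mem_r Z.g23.toGl3).2 (lt_trans (by norm_num) hp))
      exact ⟨(congrArg M.m.p k).trans (e.1.trans e'.1.symm), (congrArg M.m.r k).trans (e.2.trans e'.2.symm)⟩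
    · exact cor_mm (corC c23 cC.hi) tC hz

theorem as_s (Λ12 : c12.γ.LR) (Λ23 : c23.γ.LR) (ΛC : cC.γ.LR) (ΛB : cB.γ.LR) (v w : ℝ) :
    Same (ΛB.l v) ((Λ12.l v).trans (ΛC.l w)) ∧ Same ((Λ23.l w).trans (ΛB.r v)) ((Λ12.r v).trans (ΛC.l w)) ∧
      Same ((Λ23.r w).trans (ΛB.r v)) (ΛC.r w) := by
  refine ⟨fun x h h' => ?_, fun x h h' => ?_, fun x h h' => ?_⟩
  · obtain ⟨k, e⟩ := lr_l Λ12 h'.1
    have m := (mem_l Z.g12.toGl3).2 (k.trans (by norm_num))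
    exact (lr_l ΛB h).2.trans (((congrArg (ΛC.l w) e).trans
      ((ΛC.l0 w _ ((ko_l Z.g12 m).trans (by norm_num))).trans (Z.as1 _ m))).symm :)
  · obtain ⟨k, e⟩ := lr_l Λ23 h.1
    obtain ⟨k', e'⟩ := lr_r Λ12 h'.1
    refine (lr_r ΛB h.2).2.trans (Eq.trans ?_ (lr_l ΛC h'.2).2.symm)
    erw [e, e']
    exact as_lr Z k k'
  · obtain ⟨k, e⟩ := lr_r Λ23 h.1
    have m := (mem_r Z.g23.toGl3).2 (lt_trans (by norm_num) k)
    exact ((congrArg (ΛB.r v) e).trans ((ΛB.r0 v _ (le_trans (by norm_num) (ki_r Z.g23 m))).trans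
      (Z.as3 _ m)) :).trans (lr_r ΛC h').2.symm

end pg

/-- **P-AS** -/
theorem asStmt : AsStmt := by
  intro G a B C Z ga gB gC τ1 τ2 τ3 τ12 τ23 c12 c23 ha f1 f2 f3
  obtain ⟨τ, ι, o, h, fin⟩ := exists_mt Z.X ga ga () ha ha trivial (I := Bool)
    (fun b => bif b then ⟨gC.et, none, Z.gC.n⟩ else ⟨gB.et, none, Z.gB.n⟩) (by rintro (_ | _) <;> rfl)
    (by
      rintro (_ | _)
      exacts [(congrArg (·.e.Std) c12.hi).mp (τ12.std _), (congrArg (·.e.Std) c23.hi).mp (τ23.std _)])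
    (by
      rintro (_ | _) (_ | _) ne
      exacts [(ne rfl).elim, n_dj Z, (n_dj Z).symm, (ne rfl).elim])
    (by rintro (_ | _); exacts [Cm.core Z.gB, Cm.core Z.gC])
    (by rintro j y (_ | _); exacts [Cm.off Z.gB j y, Cm.off Z.gC j y])
  let cC : CT ga gC ga Z.gC τ12 τ3 τ := ⟨c12.o, c23.o₂, o, ι true, h true, fun i ne s => by
    obtain ⟨_ | _, rfl⟩ := fin i s
    exacts [.inl ⟨_, corB c12 (h false)⟩, (ne rfl).elim]⟩
  let cB : CT ga gB ga Z.gB τ1 τ23 τ := ⟨c12.o₁, c23.o, o, ι false, h false, fun i ne s => by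
    obtain ⟨_ | _, rfl⟩ := fin i s
    exacts [(ne rfl).elim, .inr ⟨_, corC c23 (h true)⟩]⟩
  exact ⟨τ, cC, cB, as_r₁ c12 cC cB, as_r₂ c23 cC cB,
    fun b12 g12 b23 g23 bC gC => ⟨as_gb b12 b23 bC, fun u => as_gf (g12 _) (g23 _) (gC u)⟩,
    as_m f1 f2 f3, as_f Z, fun Λ12 Λ23 ΛC ΛB v _ w _ => as_s Λ12 Λ23 ΛC ΛB v w⟩

end Crest.Agent.X212.As6
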